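import Mathlib

/-!
Statement-level definitions for P255.

Curvature, geodesics and Jacobi fields are the classical coordinate formulas, evaluated at each
point in the chart `extChartAt` of that point. The model space is a normed space `E`; in `Answer`
it is `EuclideanSpace ℝ (Fin n)`.
-/

open scoped Manifold ContDiff
open Bundle

namespace Vale.Agent.P255

/-- `ℝ^n`. -/
abbrev EE (n : ℕ) := EuclideanSpace ℝ (Fin n)

/-- A bilinear form on `ℝ^n`. -/
abbrev Form (n : ℕ) := EE n →L[ℝ] EE n →L[ℝ] ℝ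

variable {E : Type} [NormedAddCommGroup E] [NormedSpace ℝ E]

/-- Christoffel symbols `Γ(u,v)` of the Levi-Civita connection of `G` at `y`: the vector whose
`G y`-pairing with `w` is `(∂_u G(v,w) + ∂_v G(u,w) - ∂_w G(u,v)) / 2`. -/
noncomputable def christoffel (G : E → E →L[ℝ] E →L[ℝ] ℝ) (y u v : E) : E :=
  (G y).inverse ((1 / 2 : ℝ) •
    (fderiv ℝ G y u v + fderiv ℝ G y v u - ((fderiv ℝ G y).flip u).flip v))

/-- The curvature endomorphism `R(u,v)w = ∇_u∇_v w - ∇_v∇_u w` for constant fields. -/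
noncomputable def curv (G : E → E →L[ℝ] E →L[ℝ] ℝ) (y u v w : E) : E :=
  fderiv ℝ (fun z => christoffel G z v w) y u - fderiv ℝ (fun z => christoffel G z u w) y v
    + christoffel G y u (christoffel G y v w) - christoffel G y v (christoffel G y u w)

/-- Covariant derivative of a field `w` along the curve `c`. -/
noncomputable def covDeriv (G : E → E →L[ℝ] E →L[ℝ] ℝ) (c w : ℝ → E) (t : ℝ) : E :=
  deriv w t + christoffel G (c t) (deriv c t) (w t)

/-- A smooth Riemannian metric on a manifold modelled on `ℝ^n`. -/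
abbrev Metric (n : ℕ) (M : Type) [TopologicalSpace M] [ChartedSpace (EE n) M]
    [IsManifold (𝓡 n) ∞ M] :=
  ContMDiffRiemannianMetric (IB := 𝓡 n) ∞ (EE n) (fun x : M => TangentSpace (𝓡 n) x)

variable {M : Type} [TopologicalSpace M] [ChartedSpace E M] [IsManifold 𝓘(ℝ, E) ∞ M]

/-- The metric read in the chart at `x`. -/
noncomputable def metricInChart
    (g : ContMDiffRiemannianMetric (IB := 𝓘(ℝ, E)) ∞ E (fun x : M => TangentSpace 𝓘(ℝ, E) x))
    (x : M) (y : E) : E →L[ℝ] E →L[ℝ] ℝ :=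
  let p := (extChartAt 𝓘(ℝ, E) x).symm y
  let D : E →L[ℝ] E := mfderiv 𝓘(ℝ, E) 𝓘(ℝ, E) (extChartAt 𝓘(ℝ, E) x).symm y
  let B : E →L[ℝ] E →L[ℝ] ℝ := g.inner p
  B.bilinearComp D D

/-- All sectional curvatures are nonpositive. -/
def NonposCurvature
    (g : ContMDiffRiemannianMetric (IB := 𝓘(ℝ, E)) ∞ E (fun x : M => TangentSpace 𝓘(ℝ, E) x)) :
    Prop :=
  ∀ (x : M) (u v : E),
    metricInChart g x (extChartAt 𝓘(ℝ, E) x x)
      (curv (metricInChart g x) (extChartAt 𝓘(ℝ, E) x x) u v v) u ≤ 0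

/-- A geodesic defined for all times. -/
def IsGeodesic
    (g : ContMDiffRiemannianMetric (IB := 𝓘(ℝ, E)) ∞ E (fun x : M => TangentSpace 𝓘(ℝ, E) x))
    (γ : ℝ → M) : Prop :=
  ContMDiff 𝓘(ℝ) 𝓘(ℝ, E) ∞ γ ∧ ∀ t : ℝ,
    covDeriv (metricInChart g (γ t)) (fun s => extChartAt 𝓘(ℝ, E) (γ t) (γ s))
      (deriv fun s => extChartAt 𝓘(ℝ, E) (γ t) (γ s)) t = 0

/-- A field along `γ`, read in the chart at `x`. -/
noncomputable def fieldInChart {γ : ℝ → M} (J : ∀ t, TangentSpace 𝓘(ℝ, E) (γ t)) (x : M)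
    (t : ℝ) : E :=
  mfderiv 𝓘(ℝ, E) 𝓘(ℝ, E) (extChartAt 𝓘(ℝ, E) x) (γ t) (J t)

/-- A Jacobi field: `J'' + R(J,γ')γ' = 0`. -/
def IsJacobi
    (g : ContMDiffRiemannianMetric (IB := 𝓘(ℝ, E)) ∞ E (fun x : M => TangentSpace 𝓘(ℝ, E) x))
    (γ : ℝ → M) (J : ∀ t, TangentSpace 𝓘(ℝ, E) (γ t)) : Prop :=
  ContMDiff 𝓘(ℝ) 𝓘(ℝ, E).tangent ∞ (fun t => (⟨γ t, J t⟩ : TangentBundle 𝓘(ℝ, E) M)) ∧ ∀ t : ℝ,
    covDeriv (metricInChart g (γ t)) (fun s => extChartAt 𝓘(ℝ, E) (γ t) (γ s))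
        (covDeriv (metricInChart g (γ t)) (fun s => extChartAt 𝓘(ℝ, E) (γ t) (γ s))
          (fieldInChart J (γ t))) t
      + curv (metricInChart g (γ t)) (extChartAt 𝓘(ℝ, E) (γ t) (γ t)) (fieldInChart J (γ t) t)
          (deriv (fun s => extChartAt 𝓘(ℝ, E) (γ t) (γ s)) t)
          (deriv (fun s => extChartAt 𝓘(ℝ, E) (γ t) (γ s)) t) = 0

/-- No nonzero Jacobi field along a geodesic vanishes at two distinct times. -/
def NoConjugatePoints
    (g : ContMDiffRiemannianMetric (IB := 𝓘(ℝ, E)) ∞ E (fun x : M => TangentSpace 𝓘(ℝ, E) x)) :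
    Prop :=
  ∀ (γ : ℝ → M) (J : ∀ t, TangentSpace 𝓘(ℝ, E) (γ t)), IsGeodesic g γ → IsJacobi g γ J →
    ∀ a b : ℝ, a ≠ b → J a = 0 → J b = 0 → ∀ t, J t = 0

/-- Some closed connected smooth manifold modelled on `E` has a metric without conjugate points
and no metric of nonpositive sectional curvature. -/
def AnswerIn (E : Type) [NormedAddCommGroup E] [NormedSpace ℝ E] : Prop :=
  ∃ (M : Type) (_ : TopologicalSpace M) (_ : ChartedSpace E M) (_ : IsManifold 𝓘(ℝ, E) ∞ M),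
    T2Space M ∧ CompactSpace M ∧ ConnectedSpace M ∧
      (∃ g : ContMDiffRiemannianMetric (IB := 𝓘(ℝ, E)) ∞ E
          (fun x : M => TangentSpace 𝓘(ℝ, E) x), NoConjugatePoints g) ∧
      ¬ ∃ g : ContMDiffRiemannianMetric (IB := 𝓘(ℝ, E)) ∞ E
          (fun x : M => TangentSpace 𝓘(ℝ, E) x), NonposCurvature g

/-- The statement answering P255 negatively. -/
def Answer : Prop := ∃ n : ℕ, AnswerIn (EuclideanSpace ℝ (Fin n))

end Vale.Agent.P255
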